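import Mathlib
import Vale.Agent.P042.Sym.Main

/-!
A power saving for sets avoiding the values of a polynomial antisymmetric about an integer.
-/

namespace Vale.Agent.Results.P042.AntisymmetricPowerSaving

open Polynomial

/-- If `h` has degree at least two and `h(2s - x) = -h(x)` for some integer `s`, then there are
`c > 0` and `C` such that a subset of `{1, …, N}` with no difference equal to a nonzero value
`h(n)`, `n ≥ 1`, has at most `C * N ^ (1 - c)` elements. -/
theorem result (h : ℤ[X]) (s : ℤ) (hdeg : 2 ≤ h.natDegree)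
    (hsym : ∀ x : ℤ, h.eval (2 * s - x) = -h.eval x) :
    ∃ c : ℝ, 0 < c ∧ ∃ C : ℝ, ∀ N : ℕ, ∀ A : Finset ℕ, A ⊆ Finset.Icc 1 N →
      (∀ a ∈ A, ∀ b ∈ A, ∀ n : ℕ, 1 ≤ n → h.eval (n : ℤ) ≠ 0 →
        (a : ℤ) - (b : ℤ) ≠ h.eval (n : ℤ)) →
      (A.card : ℝ) ≤ C * (N : ℝ) ^ (1 - c) := by
  set P : ℤ[X] := h.comp (X + C s) with hP
  have hodd : P.comp (-X) = -P := by
    refine Polynomial.funext fun x => ?_
    simp only [hP, eval_comp, eval_neg, eval_X, eval_add, eval_C]
    rw [← hsym, show 2 * s - (x + s) = -x + s by ring]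
  have hdegP : 1 ≤ P.natDegree := by
    rw [hP, natDegree_comp, natDegree_X_add_C, mul_one]; omega
  obtain ⟨c, hc, C₀, hC⟩ :=
    Vale.Agent.P042.Sym.power_saving hodd hdegP (1 - s).toNat
  refine ⟨c, hc, |C₀|, fun N A hA hfree => ?_⟩
  rcases Nat.eq_zero_or_pos N with rfl | hN
  · have : A = ∅ := by simpa using hA
    rw [this]
    simp only [Finset.card_empty, Nat.cast_zero]
    positivity
  refine (hC N hN A hA fun a ha b hb n hn hn0 => ?_).trans
    (mul_le_mul_of_nonneg_right (le_abs_self C₀) (Real.rpow_nonneg (Nat.cast_nonneg _) _))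
  have hm : ((((n : ℤ) + s).toNat : ℕ) : ℤ) = (n : ℤ) + s := Int.toNat_of_nonneg (by omega)
  have e : P.eval (n : ℤ) = h.eval ((((n : ℤ) + s).toNat : ℕ) : ℤ) := by
    rw [hP, hm]; simp [eval_comp]
  rw [e] at hn0 ⊢
  exact hfree a ha b hb _ (by omega) hn0

end Vale.Agent.Results.P042.AntisymmetricPowerSaving
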