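import Mathlib
import Vale.Agent.P042.Gen.Main

/-!
A stretched-exponential saving for every intersective polynomial.
-/

namespace Vale.Agent.Results.P042.IntersectiveSaving

/-- For every intersective `h` of positive degree and positive leading coefficient there are
`μ > 0`, `c > 0` and `C` such that a subset of `{1, …, N}` with no nonzero difference of the form
`h(n)`, `n ≥ 1`, has at most `C * N * exp (-c * (log N) ^ μ)` elements. -/
theorem result (h : Polynomial ℤ) (hk : 1 ≤ h.natDegree) (hl : 0 < h.leadingCoeff)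
    (hroot : ∀ q : ℕ, 1 ≤ q → ∃ t : ℤ, (q : ℤ) ∣ h.eval t) :
    ∃ μ : ℝ, 0 < μ ∧ ∃ C c : ℝ, 0 < c ∧ ∀ N : ℕ, 1 ≤ N → ∀ A : Finset ℕ, A ⊆ Finset.Icc 1 N →
      (∀ x ∈ A, ∀ y ∈ A, ∀ n : ℕ, 0 < n → (x : ℤ) - y = h.eval (n : ℤ) → x = y) →
      (A.card : ℝ) ≤ C * N * Real.exp (-c * Real.log N ^ μ) :=
  Vale.Agent.P042.Gen.stretched_saving h hk hl hroot

end Vale.Agent.Results.P042.IntersectiveSaving
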