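import Mathlib
import Vale.Agent.P042.Data
import Vale.Agent.P042.Power.Quartic
import Vale.Agent.P042.Power.Sextic

/-!
Lower bounds for sets without differences that are squares, fourth powers or sixth powers.
-/

namespace Vale.Agent.Results.P042.LowerBounds

/-- There are subsets of `{1, …, N}` with at least `c * N ^ (3783 / 5000)` elements and no two
elements differing by a positive square, and likewise with exponent `179 / 196` for fourth powers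
and `214 / 225` for sixth powers. -/
theorem result :
    (∃ c : ℝ, 0 < c ∧ ∀ N : ℕ, 1 ≤ N → ∃ A : Finset ℕ, A ⊆ Finset.Icc 1 N ∧
      (∀ a ∈ A, ∀ b ∈ A, ∀ n : ℕ, 0 < n → a ≠ b + n ^ 2) ∧
      c * (N : ℝ) ^ ((3783 : ℝ) / 5000) ≤ A.card) ∧
    (∃ c : ℝ, 0 < c ∧ ∀ N : ℕ, 1 ≤ N → ∃ A : Finset ℕ, A ⊆ Finset.Icc 1 N ∧
      (∀ a ∈ A, ∀ b ∈ A, ∀ n : ℕ, 0 < n → a ≠ b + n ^ 4) ∧
      c * (N : ℝ) ^ ((179 : ℝ) / 196) ≤ A.card) ∧
    (∃ c : ℝ, 0 < c ∧ ∀ N : ℕ, 1 ≤ N → ∃ A : Finset ℕ, A ⊆ Finset.Icc 1 N ∧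
      (∀ a ∈ A, ∀ b ∈ A, ∀ n : ℕ, 0 < n → a ≠ b + n ^ 6) ∧
      c * (N : ℝ) ^ ((214 : ℝ) / 225) ≤ A.card) := by
  refine ⟨?_, ?_, ?_⟩
  · obtain ⟨c, hc, h⟩ := Vale.Agent.P042.exists_subsets_of_certificates
    refine ⟨c, hc, fun N hN => ?_⟩
    obtain ⟨A, h1, h2, h3⟩ := h N hN
    refine ⟨A, h1, h2, ?_⟩
    convert h3 using 3
    norm_num
  · obtain ⟨c, hc, h⟩ := Vale.Agent.P042.Power.Quartic.exists_subsets_of_certificates
    refine ⟨c, hc, fun N hN => ?_⟩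
    obtain ⟨A, h1, h2, h3⟩ := h N hN
    refine ⟨A, h1, h2, ?_⟩
    convert h3 using 3
    norm_num
  · obtain ⟨c, hc, h⟩ := Vale.Agent.P042.Power.Sextic.exists_subsets_of_certificates
    refine ⟨c, hc, fun N hN => ?_⟩
    obtain ⟨A, h1, h2, h3⟩ := h N hN
    refine ⟨A, h1, h2, ?_⟩
    convert h3 using 3
    norm_num

end Vale.Agent.Results.P042.LowerBounds
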