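import Mathlib
import Vale.Agent.P042.Quad.Main

/-!
A power saving for intersective quadratics with nonzero discriminant.
-/

namespace Vale.Agent.Results.P042.QuadraticPowerSaving

/-- There is one `c > 0` such that, for every intersective `h(x) = a x ^ 2 + b x + e` with `0 < a`
and nonzero discriminant, a subset of `{1, …, N}` with no nonzero difference of the form `h(n)`,
`n ≥ 1`, has at most `C * N ^ (1 - c)` elements. -/
theorem result : ∃ c : ℝ, 0 < c ∧ ∀ a b e : ℤ, 0 < a → b ^ 2 - 4 * a * e ≠ 0 →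
    (∀ q : ℕ, 1 ≤ q → ∃ t : ℤ, (q : ℤ) ∣ a * t ^ 2 + b * t + e) →
    ∃ C : ℝ, ∀ N : ℕ, ∀ A : Finset ℕ, A ⊆ Finset.Icc 1 N →
      (∀ x ∈ A, ∀ y ∈ A, ∀ n : ℕ, 0 < n →
        (x : ℤ) - y = a * (n : ℤ) ^ 2 + b * n + e → x = y) →
      (A.card : ℝ) ≤ C * (N : ℝ) ^ (1 - c) := by
  obtain ⟨c, hc, h⟩ := Vale.Agent.P042.Quad.power_saving
  refine ⟨c, hc, fun a b e ha hD hroot => ?_⟩
  obtain ⟨C, hC⟩ := h a b e ha hD hroot
  refine ⟨|C|, fun N A hA hfree => ?_⟩
  rcases Nat.eq_zero_or_pos N with rfl | hN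
  · have : A = ∅ := by simpa using hA
    rw [this]
    simp only [Finset.card_empty, Nat.cast_zero]
    positivity
  · refine (hC N hN A hA fun x hx y hy n hn hne heq => hne ?_).trans
      (mul_le_mul_of_nonneg_right (le_abs_self C) (Real.rpow_nonneg (Nat.cast_nonneg _) _))
    rw [← heq, hfree x hx y hy n hn heq, sub_self]

end Vale.Agent.Results.P042.QuadraticPowerSaving
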